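import Vale.Agent.P047.Main

namespace Vale.Agent.Results.P047.A_full

open Vale.Agent.P047

theorem result :
    (∀ C : ℝ, ∃ n : ℕ, 1 ≤ n ∧ ∃ f : (Fin n → Units ℤ) → ℝ,
      IsBoolean f ∧ C * √(deg f : ℝ) < ∑ i, coeff f {i}) ∧
    (∃ β c : ℝ, 1 / 2 < β ∧ 0 < c ∧ ∀ d : ℕ, 1 ≤ d → ∃ n : ℕ, 1 ≤ n ∧ ∃ f : (Fin n → Units ℤ) → ℝ,
      IsBoolean f ∧ deg f ≤ d ∧ c * (d : ℝ) ^ β ≤ ∑ i, coeff f {i}) :=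
  ⟨unbounded, poly_lower⟩

end Vale.Agent.Results.P047.A_full
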