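import Vale.Agent.P047.Main

namespace Vale.Agent.Results.P047.B_weak

open Vale.Agent.P047

theorem result :
    ∃ β c : ℝ, 1 / 2 < β ∧ 0 < c ∧ ∀ d : ℕ, 1 ≤ d → ∃ n : ℕ, 1 ≤ n ∧ ∃ f : (Fin n → Units ℤ) → ℝ,
      IsBoolean f ∧ deg f ≤ d ∧ c * (d : ℝ) ^ β ≤ ∑ i, coeff f {i} :=
  poly_lower

end Vale.Agent.Results.P047.B_weak
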